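import Mathlib

/-!
Mod 2 simplicial chains on finite vertex sets, with weighted boundary operators, and a chain-level
version of the `Z/2`-index (Borsuk--Ulam / Tucker / Ky Fan machinery).
-/

set_option autoImplicit false

namespace Crest.Agent.Z2Chain

open Finset

/-- mod 2 chains on finite subsets of `V` -/
abbrev Ch (V : Type*) := Finset V →₀ ZMod 2

/-- linear extension of a function on generators -/
noncomputable def lift {A B : Type*} [AddCommGroup B] [Module (ZMod 2) B] (f : A → B) :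
    (A →₀ ZMod 2) →ₗ[ZMod 2] B := Finsupp.linearCombination (ZMod 2) f

@[simp] lemma lift_single {A B : Type*} [AddCommGroup B] [Module (ZMod 2) B] (f : A → B) (a : A) :
    lift f (Finsupp.single a 1) = f a := by
  simp [lift]

lemma add_self_z2 {B : Type*} [AddCommGroup B] [Module (ZMod 2) B] (x : B) : x + x = 0 := by
  have h : (1 + 1 : ZMod 2) = 0 := by decide
  calc x + x = (1 + 1 : ZMod 2) • x := by rw [add_smul, one_smul]
    _ = 0 := by rw [h, zero_smul]

lemma eq_of_add_eq_zero_z2 {B : Type*} [AddCommGroup B] [Module (ZMod 2) B] {x y : B}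
    (h : x + y = 0) : x = y := by
  have := add_self_z2 y
  calc x = x + (y + y) := by rw [this, add_zero]
    _ = y := by rw [← add_assoc, h, zero_add]

/-- chains supported on generators with property `P` -/
def Supp {A : Type*} (P : A → Prop) : Submodule (ZMod 2) (A →₀ ZMod 2) :=
  Finsupp.supported (ZMod 2) (ZMod 2) {S | P S}

lemma mem_Supp {A : Type*} {P : A → Prop} {c : A →₀ ZMod 2} :
    c ∈ Supp P ↔ ∀ S ∈ c.support, P S := by
  rw [Supp, Finsupp.mem_supported]
  rfl

lemma single_mem_Supp {A : Type*} {P : A → Prop} {S : A} (h : P S) :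
    Finsupp.single S (1 : ZMod 2) ∈ Supp P :=
  Finsupp.single_mem_supported _ _ h

lemma Supp_mono {A : Type*} {P P' : A → Prop} (h : ∀ S, P S → P' S) {c : A →₀ ZMod 2}
    (hc : c ∈ Supp P) : c ∈ Supp P' := by
  rw [mem_Supp] at hc ⊢
  exact fun S hS => h S (hc S hS)

lemma Supp_and {A : Type*} {P P' : A → Prop} {c : A →₀ ZMod 2}
    (hc : c ∈ Supp P) (hc' : c ∈ Supp P') : c ∈ Supp (fun S => P S ∧ P' S) := by
  rw [mem_Supp] at hc hc' ⊢
  exact fun S hS => ⟨hc S hS, hc' S hS⟩

lemma map_mem_of_Supp {A B : Type*} [AddCommGroup B] [Module (ZMod 2) B] {P : A → Prop}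
    (f : (A →₀ ZMod 2) →ₗ[ZMod 2] B) (N : Submodule (ZMod 2) B)
    (h : ∀ S, P S → f (Finsupp.single S 1) ∈ N) {c : A →₀ ZMod 2} (hc : c ∈ Supp P) :
    f c ∈ N := by
  have : Supp P ≤ N.comap f := by
    rw [Supp, Finsupp.supported_eq_span_single, Submodule.span_le]
    rintro _ ⟨S, hS, rfl⟩
    exact h S hS
  exact this hc

lemma map_eq_of_Supp {A B : Type*} [AddCommGroup B] [Module (ZMod 2) B] {P : A → Prop}
    (f g : (A →₀ ZMod 2) →ₗ[ZMod 2] B)
    (h : ∀ S, P S → f (Finsupp.single S 1) = g (Finsupp.single S 1)) {c : A →₀ ZMod 2}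
    (hc : c ∈ Supp P) : f c = g c := by
  have := map_mem_of_Supp (f - g) ⊥ (fun S hS => by simp [h S hS]) hc
  simpa [sub_eq_zero] using this

lemma map_eq_zero_of_Supp {A B : Type*} [AddCommGroup B] [Module (ZMod 2) B] {P : A → Prop}
    (f : (A →₀ ZMod 2) →ₗ[ZMod 2] B)
    (h : ∀ S, P S → f (Finsupp.single S 1) = 0) {c : A →₀ ZMod 2}
    (hc : c ∈ Supp P) : f c = 0 := by
  simpa using map_eq_of_Supp f 0 (fun S hS => by simp [h S hS]) hc

lemma map_eq_all {A B : Type*} [AddCommGroup B] [Module (ZMod 2) B]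
    (f g : (A →₀ ZMod 2) →ₗ[ZMod 2] B)
    (h : ∀ S, f (Finsupp.single S 1) = g (Finsupp.single S 1)) (c : A →₀ ZMod 2) : f c = g c :=
  map_eq_of_Supp (P := fun _ => True) f g (fun S _ => h S) (mem_Supp.2 fun _ _ => trivial)

lemma eq_zero_of_Supp_false {A : Type*} {P : A → Prop} (h : ∀ S, ¬ P S) {c : A →₀ ZMod 2}
    (hc : c ∈ Supp P) : c = 0 := by
  rw [mem_Supp] at hc
  by_contra hne
  obtain ⟨S, hS⟩ := Finsupp.support_nonempty_iff.2 hne
  exact h S (hc S hS)

variable {V : Type*} [DecidableEq V]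

/-- the basis chain of a finite set -/
noncomputable abbrev sg (S : Finset V) : Ch V := Finsupp.single S 1

/-- weighted boundary -/
noncomputable def bd (w : V → ZMod 2) : Ch V →ₗ[ZMod 2] Ch V :=
  lift fun S => ∑ v ∈ S, w v • sg (S.erase v)

lemma bd_sg (w : V → ZMod 2) (S : Finset V) :
    bd w (sg S) = ∑ v ∈ S, w v • sg (S.erase v) := by
  simp [bd]

lemma bd_add (w w' : V → ZMod 2) (c : Ch V) : bd (w + w') c = bd w c + bd w' c := by
  refine map_eq_all (bd (w + w')) (bd w + bd w') (fun S => ?_) c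
  simp [bd_sg, add_smul, Finset.sum_add_distrib]

lemma bd_congr {P : Finset V → Prop} {w w' : V → ZMod 2} (h : ∀ S, P S → ∀ v ∈ S, w v = w' v)
    {c : Ch V} (hc : c ∈ Supp P) : bd w c = bd w' c := by
  refine map_eq_of_Supp (bd w) (bd w') (fun S hS => ?_) hc
  rw [bd_sg, bd_sg]
  exact Finset.sum_congr rfl fun v hv => by rw [h S hS v hv]

lemma bd_mem {P P' : Finset V → Prop} (w : V → ZMod 2)
    (h : ∀ S, P S → ∀ v ∈ S, w v ≠ 0 → P' (S.erase v)) {c : Ch V} (hc : c ∈ Supp P) :
    bd w c ∈ Supp P' := by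
  refine map_mem_of_Supp (bd w) _ (fun S hS => ?_) hc
  rw [bd_sg]
  refine Submodule.sum_mem _ fun v hv => ?_
  by_cases hw : w v = 0
  · simp [hw]
  · exact Submodule.smul_mem _ _ (single_mem_Supp (h S hS v hv hw))

lemma sum_offDiag_symm_eq_zero {B : Type*} [AddCommGroup B] [Module (ZMod 2) B] (S : Finset V)
    (F : V → V → B) (h : ∀ u ∈ S, ∀ v ∈ S, u ≠ v → F u v = F v u) :
    ∑ v ∈ S, ∑ u ∈ S.erase v, F v u = 0 := by
  have h1 : ∑ v ∈ S, ∑ u ∈ S.erase v, F v u = ∑ p ∈ S.offDiag, F p.1 p.2 := by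
    have h0 : S.offDiag = (S ×ˢ S).filter (fun p => p.1 ≠ p.2) := by
      ext p
      simp [Finset.mem_offDiag, and_assoc]
    rw [h0, Finset.sum_filter, Finset.sum_product]
    refine Finset.sum_congr rfl fun v _ => ?_
    rw [← Finset.sum_filter]
    refine Finset.sum_congr ?_ fun _ _ => rfl
    ext u
    simp [and_comm, eq_comm]
  rw [h1]
  refine Finset.sum_involution (fun p _ => p.swap) ?_ ?_ ?_ ?_
  · rintro ⟨u, v⟩ hp
    rw [Finset.mem_offDiag] at hp
    simp only [Prod.swap_prod_mk]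
    rw [h u hp.1 v hp.2.1 hp.2.2]
    exact add_self_z2 _
  · rintro ⟨u, v⟩ hp _
    rw [Finset.mem_offDiag] at hp
    intro h
    exact hp.2.2 (Prod.ext_iff.1 h).2
  · rintro ⟨u, v⟩ hp
    rw [Finset.mem_offDiag] at hp ⊢
    exact ⟨hp.2.1, hp.1, hp.2.2.symm⟩
  · rintro ⟨u, v⟩ _
    rfl

lemma bd_bd_sg (w w' : V → ZMod 2) (S : Finset V) :
    bd w (bd w' (sg S)) =
      ∑ v ∈ S, ∑ u ∈ S.erase v, (w' v * w u) • sg ((S.erase v).erase u) := by
  rw [bd_sg, map_sum]
  refine Finset.sum_congr rfl fun v _ => ?_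
  rw [map_smul, bd_sg, Finset.smul_sum]
  refine Finset.sum_congr rfl fun u _ => ?_
  rw [mul_smul]

lemma bd_bd_eq_zero {P : Finset V → Prop} {w w' : V → ZMod 2}
    (h : ∀ S, P S → ∀ u ∈ S, ∀ v ∈ S, u ≠ v → w' u * w v = w' v * w u) {c : Ch V}
    (hc : c ∈ Supp P) : bd w (bd w' c) = 0 := by
  refine map_eq_zero_of_Supp (bd w ∘ₗ bd w') (fun S hS => ?_) hc
  rw [LinearMap.comp_apply, bd_bd_sg]
  refine sum_offDiag_symm_eq_zero S (fun v u => (w' v * w u) • sg ((S.erase v).erase u)) ?_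
  intro u hu v hv huv
  rw [h S hS u hu v hv huv, Finset.erase_right_comm]

lemma bd_bd_self (w : V → ZMod 2) (c : Ch V) : bd w (bd w c) = 0 :=
  bd_bd_eq_zero (P := fun _ => True) (fun _ _ _ _ _ _ _ => mul_comm _ _)
    (mem_Supp.2 fun _ _ => trivial)

lemma bd_comm (w w' : V → ZMod 2) (c : Ch V) : bd w (bd w' c) = bd w' (bd w c) := by
  apply eq_of_add_eq_zero_z2
  have h := bd_bd_self (w + w') c
  rw [bd_add, bd_add, map_add, map_add, bd_bd_self, bd_bd_self] at h
  rw [← h]; abel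

/-- push-forward along an involution -/
noncomputable def mapT (τ : V → V) : Ch V →ₗ[ZMod 2] Ch V := lift fun S => sg (S.image τ)

lemma mapT_sg (τ : V → V) (S : Finset V) : mapT τ (sg S) = sg (S.image τ) := by
  simp [mapT]

lemma mapT_mapT {τ : V → V} (hτ : Function.Involutive τ) (c : Ch V) : mapT τ (mapT τ c) = c := by
  refine map_eq_all (mapT τ ∘ₗ mapT τ) LinearMap.id (fun S => ?_) c
  simp only [LinearMap.comp_apply, mapT_sg, LinearMap.id_apply, Finset.image_image,
    hτ.comp_self, Finset.image_id]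

lemma bd_mapT {τ : V → V} (hτ : Function.Involutive τ) (w : V → ZMod 2) (c : Ch V) :
    bd w (mapT τ c) = mapT τ (bd (w ∘ τ) c) := by
  refine map_eq_all (bd w ∘ₗ mapT τ) (mapT τ ∘ₗ bd (w ∘ τ)) (fun S => ?_) c
  simp only [LinearMap.comp_apply, mapT_sg, bd_sg, map_sum, map_smul]
  rw [Finset.sum_image (fun _ _ _ _ h => hτ.injective h)]
  refine Finset.sum_congr rfl fun v _ => ?_
  rw [Finset.image_erase hτ.injective]
  rfl

lemma mapT_mem {P P' : Finset V → Prop} (τ : V → V) (h : ∀ S, P S → P' (S.image τ)) {c : Ch V}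
    (hc : c ∈ Supp P) : mapT τ c ∈ Supp P' :=
  map_mem_of_Supp (mapT τ) _ (fun S hS => by rw [mapT_sg]; exact single_mem_Supp (h S hS)) hc

lemma mapT_of_card_zero (τ : V → V) {c : Ch V} (hc : c ∈ Supp (fun S : Finset V => S.card = 0)) :
    mapT τ c = c := by
  refine map_eq_of_Supp (mapT τ) LinearMap.id (fun S hS => ?_) hc
  rw [Finset.card_eq_zero] at hS
  subst hS
  simp [mapT_sg]

open Classical in
/-- kill the simplices that meet `B` -/
noncomputable def kill (B : V → Prop) : Ch V →ₗ[ZMod 2] Ch V :=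
  lift fun S => if ∃ v ∈ S, B v then 0 else sg S

open Classical in
/-- indicator weight -/
noncomputable def ind (B : V → Prop) : V → ZMod 2 := fun v => if B v then 1 else 0

omit [DecidableEq V] in
lemma ind_of {B : V → Prop} {v : V} (h : B v) : ind B v = 1 := by simp [ind, h]

omit [DecidableEq V] in
lemma ind_of_not {B : V → Prop} {v : V} (h : ¬ B v) : ind B v = 0 := by simp [ind, h]

omit [DecidableEq V] in
lemma of_ind_ne_zero {B : V → Prop} {v : V} (h : ind B v ≠ 0) : B v := by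
  by_contra h'
  exact h (ind_of_not h')

omit [DecidableEq V] in
lemma kill_sg_of {B : V → Prop} {S : Finset V} (h : ∃ v ∈ S, B v) : kill B (sg S) = 0 := by
  simp only [kill, lift_single, if_pos h]

omit [DecidableEq V] in
lemma kill_sg_of_not {B : V → Prop} {S : Finset V} (h : ¬ ∃ v ∈ S, B v) :
    kill B (sg S) = sg S := by
  simp only [kill, lift_single, if_neg h]

omit [DecidableEq V] in
lemma kill_mem {P : Finset V → Prop} (B : V → Prop) {c : Ch V} (hc : c ∈ Supp P) :
    kill B c ∈ Supp (fun S => P S ∧ ∀ v ∈ S, ¬ B v) := by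
  refine map_mem_of_Supp (kill B) _ (fun S hS => ?_) hc
  by_cases h : ∃ v ∈ S, B v
  · rw [kill_sg_of h]; exact Submodule.zero_mem _
  · rw [kill_sg_of_not h]
    push Not at h
    exact single_mem_Supp ⟨hS, h⟩

lemma bd_kill (B : V → Prop) (c : Ch V) :
    bd 1 (kill B c) = kill B (bd 1 c) + kill B (bd (ind B) c) := by
  refine map_eq_all (bd 1 ∘ₗ kill B) (kill B ∘ₗ bd 1 + kill B ∘ₗ bd (ind B)) (fun S => ?_) c
  simp only [LinearMap.comp_apply, LinearMap.add_apply]
  by_cases h : ∃ v ∈ S, B v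
  · rw [kill_sg_of h, map_zero, bd_sg, bd_sg, map_sum, map_sum, ← Finset.sum_add_distrib]
    symm
    refine Finset.sum_eq_zero fun v hv => ?_
    by_cases hB : B v
    · rw [ind_of hB, Pi.one_apply]
      exact add_self_z2 _
    · obtain ⟨u, hu, hBu⟩ := h
      have : kill B (sg (S.erase v)) = 0 :=
        kill_sg_of ⟨u, Finset.mem_erase.2 ⟨fun h => hB (h ▸ hBu), hu⟩, hBu⟩
      rw [map_smul, map_smul, this]
      simp
  · rw [kill_sg_of_not h, bd_sg, bd_sg, map_sum, map_sum, ← Finset.sum_add_distrib]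
    refine Finset.sum_congr rfl fun v hv => ?_
    have hB : ¬ B v := fun hB => h ⟨v, hv, hB⟩
    have : kill B (sg (S.erase v)) = sg (S.erase v) :=
      kill_sg_of_not fun ⟨u, hu, hBu⟩ => h ⟨u, Finset.mem_of_mem_erase hu, hBu⟩
    rw [map_smul, map_smul, this, ind_of_not hB]
    simp

lemma kill_mapT {τ : V → V} {B : V → Prop} (hB : ∀ v, B (τ v) ↔ B v) (c : Ch V) :
    kill B (mapT τ c) = mapT τ (kill B c) := by
  refine map_eq_all (kill B ∘ₗ mapT τ) (mapT τ ∘ₗ kill B) (fun S => ?_) c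
  simp only [LinearMap.comp_apply, mapT_sg]
  by_cases h : ∃ v ∈ S, B v
  · rw [kill_sg_of h, map_zero, kill_sg_of]
    obtain ⟨v, hv, hBv⟩ := h
    exact ⟨τ v, Finset.mem_image_of_mem _ hv, (hB v).2 hBv⟩
  · rw [kill_sg_of_not h, mapT_sg, kill_sg_of_not]
    rintro ⟨u, hu, hBu⟩
    obtain ⟨v, hv, rfl⟩ := Finset.mem_image.1 hu
    exact h ⟨v, hv, (hB v).1 hBu⟩

/-- cliques of a relation -/
def Clq (R : V → V → Prop) (S : Finset V) : Prop := ∀ u ∈ S, ∀ v ∈ S, R u v

/-- the symmetrised chains -/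
noncomputable def zc (τ : V → V) (c : ℕ → Ch V) : ℕ → Ch V
  | 0 => sg ∅
  | j + 1 => c j + mapT τ (c j)

/-- `k` "hemisphere" chains supported on cliques of `R` -/
structure IndChain (τ : V → V) (R : V → V → Prop) (k : ℕ) (c : ℕ → Ch V) : Prop where
  supp : ∀ j < k, c j ∈ Supp (fun S => Clq R S ∧ S.card = j + 1)
  bdry : ∀ j < k, bd 1 (c j) = zc τ c j

lemma IndChain.mono {τ : V → V} {R R' : V → V → Prop} (hR : ∀ u v, R u v → R' u v) {k : ℕ}
    {c : ℕ → Ch V} (h : IndChain τ R k c) : IndChain τ R' k c :=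
  ⟨fun j hj => Supp_mono (fun _ hS => ⟨fun u hu v hv => hR u v (hS.1 u hu v hv), hS.2⟩)
    (h.supp j hj), h.bdry⟩

lemma IndChain.of_le {τ : V → V} {R : V → V → Prop} {k k' : ℕ} (hk : k' ≤ k)
    {c : ℕ → Ch V} (h : IndChain τ R k c) : IndChain τ R k' c :=
  ⟨fun j hj => h.supp j (by omega), fun j hj => h.bdry j (by omega)⟩

lemma IndChain.zc_mem {τ : V → V} (hτ : Function.Involutive τ) {R : V → V → Prop}
    (hR : ∀ u v, R u v → R (τ u) (τ v)) {k : ℕ} {c : ℕ → Ch V} (h : IndChain τ R k c) :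
    ∀ j ≤ k, zc τ c j ∈ Supp (fun S => Clq R S ∧ S.card = j)
  | 0, _ => single_mem_Supp ⟨fun u hu => absurd hu (Finset.notMem_empty u), rfl⟩
  | j + 1, hj => by
    refine Submodule.add_mem _ (h.supp j hj) (mapT_mem τ ?_ (h.supp j hj))
    rintro S ⟨h1, h2⟩
    refine ⟨?_, by rw [Finset.card_image_of_injective _ hτ.injective, h2]⟩
    intro u hu v hv
    obtain ⟨u', hu', rfl⟩ := Finset.mem_image.1 hu
    obtain ⟨v', hv', rfl⟩ := Finset.mem_image.1 hv
    exact hR _ _ (h1 u' hu' v' hv')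

lemma mapT_zc {τ : V → V} (hτ : Function.Involutive τ) (c : ℕ → Ch V) :
    ∀ j, mapT τ (zc τ c j) = zc τ c j
  | 0 => by simp [zc, mapT_sg]
  | j + 1 => by rw [zc, map_add, mapT_mapT hτ, add_comm]

lemma IndChain.bd_zc {τ : V → V} (hτ : Function.Involutive τ) {R : V → V → Prop}
    {k : ℕ} {c : ℕ → Ch V} (h : IndChain τ R k c) : ∀ j ≤ k, bd 1 (zc τ c j) = 0
  | 0, _ => by simp [zc, bd_sg]
  | j + 1, hj => by
    rw [zc, map_add, bd_mapT hτ]
    have : ((1 : V → ZMod 2) ∘ τ) = 1 := rfl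
    rw [this, h.bdry j hj, mapT_zc hτ]
    exact add_self_z2 _

lemma IndChain.not_empty {τ : V → V} {R : V → V → Prop} (hR : ∀ u, ¬ R u u)
    {c : ℕ → Ch V} : ¬ IndChain τ R 1 c := by
  intro h
  have h0 : c 0 = 0 := by
    refine eq_zero_of_Supp_false ?_ (h.supp 0 (by omega))
    rintro S ⟨h1, h2⟩
    obtain ⟨u, hu⟩ : S.Nonempty := Finset.card_pos.1 (by omega)
    exact hR u (h1 u hu u hu)
  have := h.bdry 0 (by omega)
  rw [h0, map_zero, zc] at this
  exact one_ne_zero (Finsupp.single_eq_zero.1 this.symm)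

lemma IndChain.extend_zero {τ : V → V} {R : V → V → Prop} {k : ℕ} {c : ℕ → Ch V}
    (h : IndChain τ R k c) (hz : zc τ c k = 0) (m : ℕ) :
    IndChain τ R m (fun j => if j < k then c j else 0) := by
  have hzc : ∀ j, zc τ (fun j => if j < k then c j else 0) j = if j ≤ k then zc τ c j else 0 := by
    intro j
    cases j with
    | zero => simp [zc]
    | succ j =>
      by_cases hj : j < k
      · simp [zc, hj, Nat.succ_le_of_lt hj]
      · have : ¬ j + 1 ≤ k := by omega
        simp [zc, hj, this]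
  refine ⟨fun j _ => ?_, fun j _ => ?_⟩
  · by_cases hj : j < k
    · simpa [hj] using h.supp j hj
    · simp [hj]
  · rw [hzc]
    by_cases hj : j < k
    · simp [hj, hj.le, h.bdry j hj]
    · by_cases hj' : j = k
      · subst hj'
        simp [hz]
      · have : ¬ j ≤ k := by omega
        simp [hj, this]

/-- Deletion lemma: removing the vertices of `P` and of its mirror image costs one chain. -/
theorem IndChain.delete {τ : V → V} (hτ : Function.Involutive τ) {R : V → V → Prop}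
    (P : V → Prop) (hP : ∀ u v, R u v → P u → ¬ P (τ v)) (hP' : ∀ v, P v → ¬ P (τ v))
    {k : ℕ} {c : ℕ → Ch V} (h : IndChain τ R (k + 1) c) :
    ∃ c', IndChain τ (fun u v => R u v ∧ ¬ (P u ∨ P (τ u)) ∧ ¬ (P v ∨ P (τ v))) k c' ∧
      zc τ c' k = bd 1 (kill (fun v => P v ∨ P (τ v)) (c k)) +
        kill (fun v => P v ∨ P (τ v)) (bd (ind P) (zc τ c (k + 1))) := by
  set B : V → Prop := fun v => P v ∨ P (τ v) with hBdef
  have hB : ∀ v, B (τ v) ↔ B v := fun v => by simp only [hBdef, hτ v, or_comm]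
  let s : ℕ → V → ZMod 2 := fun j => if Even (k + j) then ind P else ind P ∘ τ
  have hττ : (ind P ∘ τ) ∘ τ = ind P := by
    rw [Function.comp_assoc, hτ.comp_self, Function.comp_id]
  have hs1 : ∀ j, s (j + 1) ∘ τ = s j := by
    intro j
    by_cases hj : Even (k + j)
    · have : ¬ Even (k + (j + 1)) := by rw [← add_assoc, Nat.even_add_one]; simpa using hj
      simp only [s, if_pos hj, if_neg this, hττ]
    · have : Even (k + (j + 1)) := by rw [← add_assoc, Nat.even_add_one]; simpa using hj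
      simp only [s, if_pos this, if_neg hj]
  have hsum0 : ind P + ind P ∘ τ = ind B := by
    funext v
    by_cases h1 : P v
    · simp [ind, hBdef, h1, hP' v h1]
    · by_cases h2 : P (τ v) <;> simp [ind, hBdef, h1, h2]
  have hsum : ∀ j, s j + s j ∘ τ = ind B := by
    intro j
    by_cases hj : Even (k + j)
    · simp only [s, if_pos hj, hsum0]
    · simp only [s, if_neg hj, hττ]
      rw [add_comm, hsum0]
  have hsk : s k = ind P := by simp only [s]; rw [if_pos ⟨k, rfl⟩]
  have hmul : ∀ u v, R u v → ind P u * (ind P ∘ τ) v = 0 := by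
    intro u v huv
    by_cases h1 : P u
    · simp [ind, hP u v huv h1]
    · simp [ind, h1]
  have hss : ∀ j, ∀ u v, R u v → R v u → s j u * (s j ∘ τ) v = 0 := by
    intro j u v huv hvu
    by_cases hj : Even (k + j)
    · simp only [s, if_pos hj]
      exact hmul u v huv
    · simp only [s, if_neg hj, hττ]
      rw [mul_comm]
      exact hmul v u hvu
  have hBs : ∀ j i, i < k + 1 → bd (ind B) (bd (s j) (c i)) = 0 := by
    intro j i hi
    rw [← hsum j, bd_add, bd_bd_self, zero_add]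
    refine bd_bd_eq_zero (fun S hS u hu v hv _ => ?_) (h.supp i hi)
    rw [hss j u v (hS.1 u hu v hv) (hS.1 v hv u hu), hss j v u (hS.1 v hv u hu) (hS.1 u hu v hv)]
  let c' : ℕ → Ch V := fun j => kill B (c j) + kill B (bd (s j) (c (j + 1)))
  have key : ∀ j ≤ k, zc τ c' j = bd 1 (kill B (c j)) + kill B (bd (s j) (zc τ c (j + 1))) := by
    intro j hj
    have e1 : bd 1 (kill B (c j)) = kill B (zc τ c j) + kill B (bd (s j) (c j)) +
        kill B (bd (s j ∘ τ) (c j)) := by
      rw [bd_kill, h.bdry j (by omega), ← hsum j, bd_add, map_add, add_assoc]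
    have e2 : kill B (bd (s j) (zc τ c (j + 1))) =
        kill B (bd (s j) (c j)) + mapT τ (kill B (bd (s j ∘ τ) (c j))) := by
      rw [zc, map_add, map_add, bd_mapT hτ, kill_mapT hB]
    have e3 : bd 1 (kill B (c j)) + kill B (bd (s j) (zc τ c (j + 1))) =
        kill B (zc τ c j) + (kill B (bd (s j ∘ τ) (c j)) + mapT τ (kill B (bd (s j ∘ τ) (c j)))) := by
      rw [e1, e2]
      have := add_self_z2 (kill B (bd (s j) (c j)))
      calc _ = kill B (zc τ c j) + (kill B (bd (s j ∘ τ) (c j)) +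
            mapT τ (kill B (bd (s j ∘ τ) (c j)))) +
            (kill B (bd (s j) (c j)) + kill B (bd (s j) (c j))) := by abel
        _ = _ := by rw [this, add_zero]
    rw [e3]
    cases j with
    | zero =>
      have hc : kill B (bd (s 0 ∘ τ) (c 0)) ∈ Supp (fun S : Finset V => S.card = 0) := by
        refine Supp_mono (fun S hS => hS.1) (kill_mem B (bd_mem _ ?_ (h.supp 0 (by omega))))
        intro S hS v hv _
        rw [Finset.card_erase_of_mem hv, hS.2]
      rw [mapT_of_card_zero τ hc, add_self_z2, add_zero, zc, zc, kill_sg_of_not (by simp)]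
    | succ j =>
      rw [hs1 j, zc, zc]
      simp only [c', map_add, kill_mapT hB]
      abel
  refine ⟨c', ⟨fun j hj => ?_, fun j hj => ?_⟩, ?_⟩
  · refine Submodule.add_mem _ ?_ ?_
    · refine Supp_mono ?_ (kill_mem B (h.supp j (by omega)))
      rintro S ⟨⟨h1, h2⟩, h3⟩
      exact ⟨fun u hu v hv => ⟨h1 u hu v hv, h3 u hu, h3 v hv⟩, h2⟩
    · refine Supp_mono ?_ (kill_mem B (bd_mem (P' := fun S => Clq R S ∧ S.card = j + 1) (s j) ?_
        (h.supp (j + 1) (by omega))))
      · rintro S ⟨⟨h1, h2⟩, h3⟩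
        exact ⟨fun u hu v hv => ⟨h1 u hu v hv, h3 u hu, h3 v hv⟩, h2⟩
      · rintro S ⟨h1, h2⟩ v hv _
        refine ⟨fun a ha b hb => h1 a (Finset.mem_of_mem_erase ha) b (Finset.mem_of_mem_erase hb), ?_⟩
        rw [Finset.card_erase_of_mem hv, h2]
        rfl
  · rw [key j hj.le]
    simp only [c', map_add]
    rw [bd_kill B (bd (s j) (c (j + 1))), hBs j (j + 1) (by omega), map_zero, add_zero,
      bd_comm 1 (s j), h.bdry (j + 1) (by omega)]
  · rw [key k le_rfl, hsk]

/-- In a cycle, every facet has a neighbour across each ridge. -/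
lemma exists_neighbour {Z : Ch V} (hZ : bd 1 Z = 0) {S : Finset V} (hS : S ∈ Z.support) {a : V}
    (ha : a ∈ S) : ∃ v, v ∉ S ∧ insert v (S.erase a) ∈ Z.support := by
  by_contra hne
  push Not at hne
  have h1 : bd 1 Z = ∑ S' ∈ Z.support, Z S' • bd 1 (sg S') := by
    conv_lhs => rw [← Finsupp.sum_single Z]
    rw [Finsupp.sum, map_sum]
    refine Finset.sum_congr rfl fun S' _ => ?_
    rw [← map_smul]
    simp
  have h2 : (bd 1 Z) (S.erase a) = Z S := by
    rw [h1, Finsupp.finsetSum_apply, Finset.sum_eq_single S]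
    · rw [Finsupp.smul_apply, bd_sg, Finsupp.finsetSum_apply, Finset.sum_eq_single a]
      · simp
      · intro b hb hba
        have : S.erase b ≠ S.erase a := fun h => hba ((Finset.erase_inj S hb).1 h)
        simp [Finsupp.single_eq_of_ne' this]
      · intro h; exact absurd ha h
    · intro S' hS' hne'
      rw [Finsupp.smul_apply, bd_sg, Finsupp.finsetSum_apply, Finset.sum_eq_zero, smul_zero]
      intro v hv
      have : S'.erase v ≠ S.erase a := by
        intro h
        have hS'eq : S' = insert v (S.erase a) := by rw [← h, Finset.insert_erase hv]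
        by_cases hvS : v ∈ S
        · have hv' : v ∉ S.erase a := by rw [← h]; exact Finset.notMem_erase v S'
          have : v = a := by
            by_contra hva
            exact hv' (Finset.mem_erase.2 ⟨hva, hvS⟩)
          subst this
          exact hne' (by rw [hS'eq, Finset.insert_erase hvS])
        · exact hne v hvS (hS'eq ▸ hS')
      simp [Finsupp.single_eq_of_ne' this]
    · intro h; exact absurd hS h
  rw [hZ] at h2
  exact (Finsupp.mem_support_iff.1 hS) h2.symm

end Crest.Agent.Z2Chain
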