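import Crest.Agent.Lib.Z2Chain.Basic

/-!
The parity form of the Tucker / Ky Fan lemma at chain level.
-/

set_option autoImplicit false

namespace Crest.Agent.Z2Chain

open Finset

variable {V : Type*} [DecidableEq V]

/-- composition of weighted boundaries -/
noncomputable def Dl : List (V → ZMod 2) → Ch V →ₗ[ZMod 2] Ch V
  | [] => LinearMap.id
  | w :: ws => Dl ws ∘ₗ bd w

@[simp] lemma Dl_nil (c : Ch V) : Dl [] c = c := rfl

@[simp] lemma Dl_cons (w : V → ZMod 2) (ws : List (V → ZMod 2)) (c : Ch V) :
    Dl (w :: ws) c = Dl ws (bd w c) := rfl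

lemma Dl_bd_comm (ws : List (V → ZMod 2)) (w : V → ZMod 2) (c : Ch V) :
    Dl ws (bd w c) = bd w (Dl ws c) := by
  induction ws generalizing c with
  | nil => rfl
  | cons w' ws ih => rw [Dl_cons, Dl_cons, bd_comm, ih]

lemma Dl_perm {ws ws' : List (V → ZMod 2)} (h : ws.Perm ws') (c : Ch V) : Dl ws c = Dl ws' c := by
  induction h generalizing c with
  | nil => rfl
  | cons w _ ih => rw [Dl_cons, Dl_cons, ih]
  | swap w w' ws => rw [Dl_cons, Dl_cons, Dl_cons, Dl_cons, bd_comm]
  | trans _ _ ih1 ih2 => rw [ih1, ih2]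

section Labels

variable {C : Type*} (col : V → C) (sgn : V → Bool)

/-- weight of a signed label -/
noncomputable def lw (a : C × Bool) : V → ZMod 2 := ind fun v => col v = a.1 ∧ sgn v = a.2

/-- no complementary pair -/
def NC (S : Finset V) : Prop := ∀ u ∈ S, ∀ v ∈ S, col u = col v → sgn u = sgn v

lemma Dl_eq_zero_of_few (A : C → Prop) [DecidablePred A] (as : List (C × Bool)) (hA : ∀ a ∈ as, A a.1) {c : Ch V}
    (hc : c ∈ Supp fun S : Finset V => (S.filter fun v => A (col v)).card < as.length) :
    Dl (as.map (lw col sgn)) c = 0 := by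
  induction as generalizing c with
  | nil => simpa using eq_zero_of_Supp_false (fun S => by simp) hc
  | cons a as ih =>
    rw [List.map_cons, Dl_cons]
    refine ih (fun b hb => hA b (List.mem_cons_of_mem _ hb)) (bd_mem _ ?_ hc)
    intro S hS v hv hw
    have hv' : v ∈ S.filter fun v => A (col v) := by
      rw [Finset.mem_filter, (of_ind_ne_zero hw).1]
      exact ⟨hv, hA a List.mem_cons_self⟩
    rw [Finset.filter_erase, Finset.card_erase_of_mem hv']
    have := Finset.card_pos.2 ⟨v, hv'⟩
    simp only [List.length_cons] at hS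
    omega

omit [DecidableEq V] in
lemma lw_mul_lw_not {S : Finset V} (hS : NC col sgn S) (a : C × Bool) {u v : V} (hu : u ∈ S)
    (hv : v ∈ S) : lw col sgn a u * lw col sgn (a.1, !a.2) v = 0 := by
  by_contra h
  have h1 := of_ind_ne_zero (left_ne_zero_of_mul h)
  have h2 := of_ind_ne_zero (right_ne_zero_of_mul h)
  have := hS u hu v hv (h1.1.trans h2.1.symm)
  rw [h1.2, h2.2] at this
  simp at this

lemma bd_lw_mem_NC (w : V → ZMod 2) {c : Ch V} (hc : c ∈ Supp (NC col sgn)) :
    bd w c ∈ Supp (NC col sgn) :=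
  bd_mem _ (fun _ hS _ _ _ a ha b hb =>
    hS a (Finset.mem_of_mem_erase ha) b (Finset.mem_of_mem_erase hb)) hc

lemma Dl_bd_col_eq_zero (as : List (C × Bool)) (hnd : (as.map Prod.fst).Nodup) {c : Ch V}
    (hc : c ∈ Supp (NC col sgn)) :
    Dl (as.map (lw col sgn)) (bd (ind fun v => col v ∈ as.map Prod.fst) c) = 0 := by
  induction as generalizing c with
  | nil =>
    have : (ind fun v => col v ∈ ([] : List (C × Bool)).map Prod.fst) = 0 := by
      funext v; simp [ind]
    rw [this, List.map_nil, Dl_nil]
    refine map_eq_zero_of_Supp (bd 0) (fun S _ => ?_) hc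
    simp [bd_sg]
  | cons a as ih =>
    rw [List.map_cons, List.nodup_cons] at hnd
    have hw : (ind fun v => col v ∈ (a :: as).map Prod.fst) =
        lw col sgn a + lw col sgn (a.1, !a.2) + ind fun v => col v ∈ as.map Prod.fst := by
      funext v
      have h0 := hnd.1
      simp only [Pi.add_apply, lw, ind]
      by_cases h1 : col v = a.1
      · have h2 : ¬ col v ∈ as.map Prod.fst := h1 ▸ hnd.1
        rw [if_neg h2, if_pos (by rw [List.map_cons, List.mem_cons]; exact Or.inl h1)]
        by_cases h3 : sgn v = a.2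
        · rw [if_pos ⟨h1, h3⟩, if_neg (by simp [h3])]; simp
        · rw [if_neg (fun h => h3 h.2), if_pos ⟨h1, Bool.eq_not_iff.2 h3⟩]; simp
      · by_cases h2 : col v ∈ as.map Prod.fst
        · rw [if_pos h2, if_pos (by rw [List.map_cons, List.mem_cons]; exact Or.inr h2)]; simp [h1]
        · rw [if_neg h2, if_neg (by rw [List.map_cons, List.mem_cons]; tauto)]; simp [h1]
    rw [hw, List.map_cons, Dl_cons, bd_add, bd_add, map_add (bd _), map_add (bd _), bd_bd_self,
      zero_add]
    have h0 : bd (lw col sgn a) (bd (lw col sgn (a.1, !a.2)) c) = 0 := by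
      refine bd_bd_eq_zero (fun S hS u hu v hv _ => ?_) hc
      rw [mul_comm, lw_mul_lw_not col sgn hS a hv hu, mul_comm, lw_mul_lw_not col sgn hS a hu hv]
    rw [h0, zero_add, bd_comm]
    exact ih hnd.2 (bd_lw_mem_NC col sgn _ hc)

/-- Tucker / Ky Fan parity: with as many chains as colours and no complementary edge, every
signed rainbow pattern occurs an odd number of times in the top cycle. -/
theorem kyfan {τ : V → V} (hτ : Function.Involutive τ) (hcol : ∀ v, col (τ v) = col v)
    (hsgn : ∀ v, sgn (τ v) = !sgn v) (as : List (C × Bool)) (hnd : (as.map Prod.fst).Nodup)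
    {R : V → V → Prop} (hnc : ∀ u v, R u v → col u = col v → sgn u = sgn v)
    (hin : ∀ u, R u u → col u ∈ as.map Prod.fst) {c : ℕ → Ch V} (h : IndChain τ R as.length c)
    (hR : ∀ u v, R u v → R (τ u) (τ v)) :
    Dl (as.map (lw col sgn)) (zc τ c as.length) = sg ∅ := by
  classical
  induction as generalizing R c with
  | nil => rfl
  | cons a as ih =>
    rw [List.map_cons, List.nodup_cons] at hnd
    set P : V → Prop := fun v => col v = a.1 ∧ sgn v = a.2 with hPdef
    have hBiff : ∀ v, (P v ∨ P (τ v)) ↔ col v = a.1 := by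
      intro v
      simp only [hPdef, hcol, hsgn]
      cases sgn v <;> cases a.2 <;> simp
    obtain ⟨c', hc', hz⟩ := IndChain.delete hτ P
      (fun u v huv hu hv => by
        have h1 := hnc u v huv (hu.1.trans ((hcol v).symm.trans hv.1).symm)
        have h2 := hv.2
        rw [hsgn, ← h1, hu.2] at h2
        simp at h2)
      (fun v hv hv' => by
        have h2 := hv'.2
        rw [hsgn, hv.2] at h2
        simp at h2) (k := as.length) h
    have ih' := ih hnd.2 (R := fun u v => R u v ∧ ¬ (P u ∨ P (τ u)) ∧ ¬ (P v ∨ P (τ v)))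
      (fun u v huv => hnc u v huv.1)
      (fun u hu => by
        have := hin u hu.1
        rw [List.map_cons, List.mem_cons] at this
        exact this.resolve_left fun h => hu.2.1 ((hBiff u).2 h))
      hc'
      (fun u v huv => ⟨hR u v huv.1, by rw [hBiff, hcol, ← hBiff]; exact huv.2.1,
        by rw [hBiff, hcol, ← hBiff]; exact huv.2.2⟩)
    rw [hz, map_add] at ih'
    have hk := kill_mem (fun v => P v ∨ P (τ v)) (h.supp as.length (by simp))
    have e1 : Dl (as.map (lw col sgn)) (bd 1 (kill (fun v => P v ∨ P (τ v)) (c as.length))) = 0 := by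
      rw [bd_congr (w' := ind fun v => col v ∈ as.map Prod.fst) ?_ hk]
      · refine Dl_bd_col_eq_zero col sgn as hnd.2 (Supp_mono ?_ hk)
        intro S hS u hu v hv
        exact hnc u v (hS.1.1 u hu v hv)
      · intro S hS v hv
        have := hin v (hS.1.1 v hv v hv)
        rw [List.map_cons, List.mem_cons] at this
        exact (ind_of (B := fun v => col v ∈ as.map Prod.fst)
          (this.resolve_left fun h => hS.2 v hv ((hBiff v).2 h))).symm
    have hy : bd (ind P) (zc τ c (as.length + 1)) ∈
        Supp fun S : Finset V => S.card = as.length := by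
      refine bd_mem _ ?_ (h.zc_mem hτ hR (as.length + 1) le_rfl)
      intro S hS v hv _
      rw [Finset.card_erase_of_mem hv, hS.2]
      rfl
    have e2 : Dl (as.map (lw col sgn)) (kill (fun v => P v ∨ P (τ v))
        (bd (ind P) (zc τ c (as.length + 1)))) =
        Dl (as.map (lw col sgn)) (bd (ind P) (zc τ c (as.length + 1))) := by
      refine map_eq_of_Supp (Dl (as.map (lw col sgn)) ∘ₗ kill (fun v => P v ∨ P (τ v)))
        (Dl (as.map (lw col sgn))) (fun S hS => ?_) hy
      rw [LinearMap.comp_apply]
      by_cases hB : ∃ v ∈ S, P v ∨ P (τ v)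
      · rw [kill_sg_of hB, map_zero]
        symm
        refine Dl_eq_zero_of_few col sgn (fun i => i ≠ a.1) as ?_ (single_mem_Supp ?_)
        · intro b hb hba
          exact hnd.1 (hba ▸ List.mem_map_of_mem hb)
        · obtain ⟨v, hv, hBv⟩ := hB
          rw [← hS]
          refine Finset.card_lt_card ⟨Finset.filter_subset _ _, fun hsub => ?_⟩
          exact (Finset.mem_filter.1 (hsub hv)).2 ((hBiff v).1 hBv)
      · rw [kill_sg_of_not hB]
    rw [e1, zero_add, e2] at ih'
    exact ih'

end Labels

end Crest.Agent.Z2Chain
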