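import Crest.Agent.Lib.Z2Chain.Basic

/-!
Existence of arbitrarily fine "hemisphere" chains on the `ℓ¹`-sphere of `Fin n → ℝ`
(the chain-level Borsuk--Ulam theorem), through ordered chains and the prism operator.
-/

set_option autoImplicit false

namespace Crest.Agent.Z2Chain

open Finset

/-- ordered chains -/
abbrev LCh (V : Type*) := List V →₀ ZMod 2

section Ordered

variable {V W U : Type*}

/-- basis chain of a list -/
noncomputable abbrev sl (l : List V) : LCh V := Finsupp.single l 1

/-- cone -/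
noncomputable def lcone (x : V) : LCh V →ₗ[ZMod 2] LCh V := lift fun l => sl (x :: l)

lemma lcone_sl (x : V) (l : List V) : lcone x (sl l) = sl (x :: l) := by simp [lcone]

lemma single_cons (x : V) (l : List V) :
    Finsupp.single (x :: l) (1 : ZMod 2) = lcone x (Finsupp.single l 1) := (lcone_sl x l).symm

/-- boundary of a list -/
noncomputable def lbd0 : List V → LCh V
  | [] => 0
  | x :: l => sl l + lcone x (lbd0 l)

/-- boundary -/
noncomputable def lbd : LCh V →ₗ[ZMod 2] LCh V := lift lbd0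

lemma lbd_sl (l : List V) : lbd (sl l) = lbd0 l := by simp [lbd]

lemma lbd_lcone (x : V) (c : LCh V) : lbd (lcone x c) = c + lcone x (lbd c) := by
  refine map_eq_all (lbd ∘ₗ lcone x) (LinearMap.id + lcone x ∘ₗ lbd) (fun l => ?_) c
  simp only [LinearMap.comp_apply, LinearMap.add_apply, LinearMap.id_apply, lcone_sl, lbd_sl, lbd0]

/-- push-forward -/
noncomputable def lmap (f : V → W) : LCh V →ₗ[ZMod 2] LCh W := lift fun l => sl (l.map f)

lemma lmap_sl (f : V → W) (l : List V) : lmap f (sl l) = sl (l.map f) := by simp [lmap]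

lemma lmap_lcone (f : V → W) (x : V) (c : LCh V) :
    lmap f (lcone x c) = lcone (f x) (lmap f c) := by
  refine map_eq_all (lmap f ∘ₗ lcone x) (lcone (f x) ∘ₗ lmap f) (fun l => ?_) c
  simp only [LinearMap.comp_apply, lcone_sl, lmap_sl, List.map_cons]

lemma lmap_lmap (f : V → W) (g : W → U) (c : LCh V) : lmap g (lmap f c) = lmap (g ∘ f) c := by
  refine map_eq_all (lmap g ∘ₗ lmap f) (lmap (g ∘ f)) (fun l => ?_) c
  simp only [LinearMap.comp_apply, lmap_sl, List.map_map]

lemma lmap_id (c : LCh V) : lmap id c = c := by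
  refine map_eq_all (lmap id) LinearMap.id (fun l => ?_) c
  simp only [lmap_sl, List.map_id, LinearMap.id_apply]

lemma lbd_lmap (f : V → W) (c : LCh V) : lbd (lmap f c) = lmap f (lbd c) := by
  refine map_eq_all (lbd ∘ₗ lmap f) (lmap f ∘ₗ lbd) (fun l => ?_) c
  simp only [LinearMap.comp_apply]
  induction l with
  | nil => simp [lmap_sl, lbd_sl, lbd0]
  | cons x l ih =>
    rw [single_cons, lmap_lcone, lbd_lcone, lbd_lcone, map_add, lmap_lcone, ih]

/-- prism of a list -/
noncomputable def prism0 (f g : V → W) : List V → LCh W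
  | [] => 0
  | x :: l => lcone (f x) (sl ((x :: l).map g)) + lcone (f x) (prism0 f g l)

/-- prism operator -/
noncomputable def prism (f g : V → W) : LCh V →ₗ[ZMod 2] LCh W := lift (prism0 f g)

lemma prism_sl (f g : V → W) (l : List V) : prism f g (sl l) = prism0 f g l := by simp [prism]

lemma prism_lcone (f g : V → W) (x : V) (c : LCh V) :
    prism f g (lcone x c) = lcone (f x) (lcone (g x) (lmap g c)) + lcone (f x) (prism f g c) := by
  refine map_eq_all (prism f g ∘ₗ lcone x)
    (lcone (f x) ∘ₗ lcone (g x) ∘ₗ lmap g + lcone (f x) ∘ₗ prism f g) (fun l => ?_) c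
  simp only [LinearMap.comp_apply, LinearMap.add_apply, lcone_sl, lmap_sl, prism_sl, prism0,
    List.map_cons]

lemma lbd_prism (f g : V → W) (c : LCh V) :
    lbd (prism f g c) + prism f g (lbd c) = lmap f c + lmap g c := by
  refine map_eq_all (lbd ∘ₗ prism f g + prism f g ∘ₗ lbd) (lmap f + lmap g) (fun l => ?_) c
  simp only [LinearMap.comp_apply, LinearMap.add_apply]
  induction l with
  | nil => simp [lmap_sl, lbd_sl, lbd0, prism_sl, prism0, add_self_z2]
  | cons x l ih =>
    rw [single_cons]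
    generalize (Finsupp.single l (1 : ZMod 2)) = d at ih ⊢
    have ih' : lbd (prism f g d) = prism f g (lbd d) + (lmap f d + lmap g d) := by
      rw [← ih, add_comm (lbd _), ← add_assoc, add_self_z2, zero_add]
    simp only [prism_lcone, lbd_lcone, map_add, lmap_lcone, lbd_lmap, ih']
    generalize lcone (g x) (lmap g d) = A
    generalize lcone (f x) (lmap g d) = B
    generalize lcone (f x) (lcone (g x) (lmap g (lbd d))) = C
    generalize lcone (f x) (prism f g (lbd d)) = D
    generalize lcone (f x) (lmap f d) = E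
    generalize prism f g d = F
    have hB := add_self_z2 B
    have hC := add_self_z2 C
    have hD := add_self_z2 D
    have hF := add_self_z2 F
    calc _ = E + A + (B + B) + (C + C) + (D + D) + (F + F) := by abel
      _ = _ := by rw [hB, hC, hD, hF]; simp

lemma lcone_mem {P P' : List V → Prop} (x : V) (h : ∀ l, P l → P' (x :: l)) {c : LCh V}
    (hc : c ∈ Supp P) : lcone x c ∈ Supp P' :=
  map_mem_of_Supp (lcone x) _ (fun l hl => by rw [lcone_sl]; exact single_mem_Supp (h l hl)) hc

lemma lmap_mem {P : List V → Prop} {P' : List W → Prop} (f : V → W)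
    (h : ∀ l, P l → P' (l.map f)) {c : LCh V} (hc : c ∈ Supp P) : lmap f c ∈ Supp P' :=
  map_mem_of_Supp (lmap f) _ (fun l hl => by rw [lmap_sl]; exact single_mem_Supp (h l hl)) hc

lemma prism0_mem (f g : V → W) (l : List V) :
    prism0 f g l ∈ Supp fun l' : List W =>
      l'.length = l.length + 1 ∧ ∀ y ∈ l', ∃ x ∈ l, y = f x ∨ y = g x := by
  induction l with
  | nil => exact Submodule.zero_mem _
  | cons x l ih =>
    refine Submodule.add_mem _ ?_ (lcone_mem _ ?_ ih)
    · rw [lcone_sl]
      refine single_mem_Supp ⟨by simp, fun y hy => ?_⟩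
      rcases List.mem_cons.1 hy with rfl | hy
      · exact ⟨x, List.mem_cons_self, Or.inl rfl⟩
      · obtain ⟨z, hz, rfl⟩ := List.mem_map.1 hy
        exact ⟨z, hz, Or.inr rfl⟩
    · rintro l' ⟨h1, h2⟩
      refine ⟨by simp [h1], fun y hy => ?_⟩
      rcases List.mem_cons.1 hy with rfl | hy
      · exact ⟨x, List.mem_cons_self, Or.inl rfl⟩
      · obtain ⟨z, hz, h⟩ := h2 y hy
        exact ⟨z, List.mem_cons_of_mem _ hz, h⟩

lemma prism_mem {P : List V → Prop} {P' : List W → Prop} (f g : V → W)
    (h : ∀ l, P l → ∀ l' : List W, l'.length = l.length + 1 →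
      (∀ y ∈ l', ∃ x ∈ l, y = f x ∨ y = g x) → P' l') {c : LCh V} (hc : c ∈ Supp P) :
    prism f g c ∈ Supp P' :=
  map_mem_of_Supp (prism f g) _ (fun l hl => by
    rw [prism_sl]
    exact Supp_mono (fun l' hl' => h l hl l' hl'.1 hl'.2) (prism0_mem f g l)) hc

lemma lbd_sum_prism (H : ℕ → V → W) {z : LCh V} (hz : lbd z = 0) (m : ℕ) :
    lbd (∑ t ∈ Finset.range m, prism (H t) (H (t + 1)) z) = lmap (H 0) z + lmap (H m) z := by
  induction m with
  | zero => simp [add_self_z2]
  | succ m ih =>
    have := lbd_prism (H m) (H (m + 1)) z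
    rw [hz, map_zero, add_zero] at this
    rw [Finset.sum_range_succ, map_add, ih, this]
    have h2 := add_self_z2 (lmap (H m) z)
    calc _ = lmap (H 0) z + lmap (H (m + 1)) z + (lmap (H m) z + lmap (H m) z) := by abel
      _ = _ := by rw [h2, add_zero]

end Ordered

section Normalise

variable {V L : Type*} [DecidableEq L]

/-- cone on unordered chains -/
noncomputable def cone (a : L) : Ch L →ₗ[ZMod 2] Ch L :=
  lift fun S => if a ∈ S then 0 else sg (insert a S)

lemma cone_sg (a : L) (S : Finset L) :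
    cone a (sg S) = if a ∈ S then 0 else sg (insert a S) := by
  simp only [cone, lift_single]

lemma bd_cone (a : L) (c : Ch L) : bd 1 (cone a c) = c + cone a (bd 1 c) := by
  refine map_eq_all (bd 1 ∘ₗ cone a) (LinearMap.id + cone a ∘ₗ bd 1) (fun S => ?_) c
  simp only [LinearMap.comp_apply, LinearMap.add_apply, LinearMap.id_apply, cone_sg, bd_sg,
    map_sum, Pi.one_apply, one_smul]
  by_cases ha : a ∈ S
  · rw [if_pos ha, map_zero, Finset.sum_eq_single a]
    · rw [if_neg (Finset.notMem_erase a S), Finset.insert_erase ha]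
      exact (add_self_z2 _).symm
    · intro b _ hba
      rw [if_pos (Finset.mem_erase.2 ⟨hba.symm, ha⟩)]
    · intro h; exact absurd ha h
  · rw [if_neg ha, bd_sg, Finset.sum_insert ha, Finset.erase_insert ha]
    simp only [Pi.one_apply, one_smul]
    congr 1
    refine Finset.sum_congr rfl fun v hv => ?_
    have hva : a ≠ v := fun h => ha (h ▸ hv)
    rw [if_neg (fun h => ha (Finset.mem_of_mem_erase h)), Finset.erase_insert_of_ne hva]

lemma mapT_cone {τ : L → L} (hτ : Function.Injective τ) (a : L) (c : Ch L) :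
    mapT τ (cone a c) = cone (τ a) (mapT τ c) := by
  refine map_eq_all (mapT τ ∘ₗ cone a) (cone (τ a) ∘ₗ mapT τ) (fun S => ?_) c
  simp only [LinearMap.comp_apply, cone_sg, mapT_sg]
  by_cases ha : a ∈ S
  · rw [if_pos ha, if_pos (Finset.mem_image_of_mem _ ha), map_zero]
  · rw [if_neg ha, if_neg, mapT_sg, Finset.image_insert]
    intro h
    obtain ⟨b, hb, hba⟩ := Finset.mem_image.1 h
    exact ha (hτ hba ▸ hb)

/-- normalisation of a list of labelled points -/
noncomputable def pi0 (f : V → L) : List V → Ch L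
  | [] => sg ∅
  | x :: l => cone (f x) (pi0 f l)

/-- normalisation -/
noncomputable def piL (f : V → L) : LCh V →ₗ[ZMod 2] Ch L := lift (pi0 f)

lemma piL_sl (f : V → L) (l : List V) : piL f (sl l) = pi0 f l := by simp [piL]

lemma piL_lcone (f : V → L) (x : V) (c : LCh V) : piL f (lcone x c) = cone (f x) (piL f c) := by
  refine map_eq_all (piL f ∘ₗ lcone x) (cone (f x) ∘ₗ piL f) (fun l => ?_) c
  simp only [LinearMap.comp_apply, lcone_sl, piL_sl, pi0]

lemma bd_piL (f : V → L) (c : LCh V) : bd 1 (piL f c) = piL f (lbd c) := by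
  refine map_eq_all (bd 1 ∘ₗ piL f) (piL f ∘ₗ lbd) (fun l => ?_) c
  simp only [LinearMap.comp_apply]
  induction l with
  | nil => simp [piL_sl, lbd_sl, lbd0, pi0, bd_sg]
  | cons x l ih => rw [single_cons, piL_lcone, bd_cone, lbd_lcone, map_add, piL_lcone, ih]

lemma mapT_piL {τ : L → L} (hτ : Function.Injective τ) (f : V → L) (ν : V → V)
    (hf : ∀ x, f (ν x) = τ (f x)) (c : LCh V) : mapT τ (piL f c) = piL f (lmap ν c) := by
  refine map_eq_all (mapT τ ∘ₗ piL f) (piL f ∘ₗ lmap ν) (fun l => ?_) c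
  simp only [LinearMap.comp_apply]
  induction l with
  | nil => simp [piL_sl, lmap_sl, pi0, mapT_sg]
  | cons x l ih => rw [single_cons, piL_lcone, mapT_cone hτ, lmap_lcone, piL_lcone, ih, hf]

lemma pi0_mem (f : V → L) (l : List V) :
    pi0 f l ∈ Supp fun S : Finset L => S.card = l.length ∧ ∀ u ∈ S, ∃ x ∈ l, u = f x := by
  induction l with
  | nil => exact single_mem_Supp ⟨rfl, fun u hu => absurd hu (Finset.notMem_empty u)⟩
  | cons x l ih =>
    refine map_mem_of_Supp (cone (f x)) _ (fun S hS => ?_) ih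
    rw [cone_sg]
    split_ifs with h
    · exact Submodule.zero_mem _
    · refine single_mem_Supp ⟨by rw [Finset.card_insert_of_notMem h, hS.1]; rfl, fun u hu => ?_⟩
      rcases Finset.mem_insert.1 hu with rfl | hu
      · exact ⟨x, List.mem_cons_self, rfl⟩
      · obtain ⟨y, hy, h'⟩ := hS.2 u hu
        exact ⟨y, List.mem_cons_of_mem _ hy, h'⟩

end Normalise

section Sphere

variable {n : ℕ}

/-- the `ℓ¹`-sphere of the first `k` coordinates -/
def Sph (k : ℕ) (a : Fin n → ℝ) : Prop := ∑ i, |a i| = 1 ∧ ∀ i : Fin n, k ≤ i.val → a i = 0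

/-- small lists on the sphere -/
def Small (δ : ℝ) (k : ℕ) (l : List (Fin n → ℝ)) : Prop :=
  (∀ a ∈ l, Sph k a) ∧ ∀ a ∈ l, ∀ b ∈ l, dist a b ≤ δ

/-- symmetrised ordered chains -/
noncomputable def lz (c : ℕ → LCh (Fin n → ℝ)) : ℕ → LCh (Fin n → ℝ)
  | 0 => sl []
  | j + 1 => c j + lmap (fun a => -a) (c j)

/-- the straight homotopy to a pole -/
noncomputable def Hom (e : Fin n) (θ : ℝ) (a : Fin n → ℝ) : Fin n → ℝ :=
  (1 - θ) • a + θ • Pi.single e 1

lemma Sph.neg {k : ℕ} {a : Fin n → ℝ} (h : Sph k a) : Sph k (-a) :=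
  ⟨by simpa using h.1, fun i hi => by simp [h.2 i hi]⟩

lemma Sph.abs_le {k : ℕ} {a : Fin n → ℝ} (h : Sph k a) (i : Fin n) : |a i| ≤ 1 := by
  rw [← h.1]
  exact Finset.single_le_sum (f := fun i => |a i|) (fun i _ => abs_nonneg _) (Finset.mem_univ i)

lemma Sph.hom {a : Fin n → ℝ} (e : Fin n) (h : Sph e.val a) {θ : ℝ} (h0 : 0 ≤ θ) (h1 : θ ≤ 1) :
    Sph (e.val + 1) (Hom e θ a) := by
  refine ⟨?_, fun i hi => ?_⟩
  · have : ∀ i, |Hom e θ a i| = (1 - θ) * |a i| + θ * (Pi.single e (1 : ℝ) : Fin n → ℝ) i := by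
      intro i
      by_cases hi : i = e
      · subst hi
        simp [Hom, h.2 i le_rfl, abs_of_nonneg h0]
      · simp [Hom, Pi.single_eq_of_ne hi, abs_mul, abs_of_nonneg (sub_nonneg.2 h1)]
    simp only [this, Finset.sum_add_distrib, ← Finset.mul_sum, h.1]
    simp
  · have hi' : i ≠ e := fun h => by subst h; omega
    simp [Hom, Pi.single_eq_of_ne hi', h.2 i (by omega)]

lemma dist_hom_le (e : Fin n) {θ θ' δ : ℝ} (h0 : 0 ≤ θ) (h1 : θ ≤ 1) {a b : Fin n → ℝ} {k : ℕ}
    (hb : Sph k b) (hab : dist a b ≤ δ) : dist (Hom e θ a) (Hom e θ' b) ≤ δ + 2 * |θ - θ'| := by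
  have hδ : 0 ≤ δ := dist_nonneg.trans hab
  rw [dist_pi_le_iff (by positivity)]
  intro i
  have h2 : |a i - b i| ≤ δ := by
    rw [← Real.dist_eq]; exact (dist_le_pi_dist a b i).trans hab
  have h3 := hb.abs_le i
  have h4 : |(Pi.single e (1 : ℝ) : Fin n → ℝ) i| ≤ 1 := by
    by_cases hi : i = e
    · subst hi; simp
    · simp [Pi.single_eq_of_ne hi]
  rw [Real.dist_eq]
  have e1 : Hom e θ a i - Hom e θ' b i =
      (1 - θ) * (a i - b i) + (θ - θ') * ((Pi.single e (1 : ℝ) : Fin n → ℝ) i - b i) := by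
    simp only [Hom, Pi.add_apply, Pi.smul_apply, smul_eq_mul]; ring
  rw [e1]
  refine (abs_add_le _ _).trans (add_le_add ?_ ?_)
  · rw [abs_mul, abs_of_nonneg (sub_nonneg.2 h1)]
    calc (1 - θ) * |a i - b i| ≤ 1 * δ :=
          mul_le_mul (by linarith) h2 (abs_nonneg _) zero_le_one
      _ = δ := one_mul δ
  · rw [abs_mul, mul_comm]
    refine mul_le_mul_of_nonneg_right ?_ (abs_nonneg _)
    exact (abs_sub _ _).trans (by linarith)

lemma exists_lchains (n : ℕ) {ε : ℝ} (hε : 0 < ε) : ∀ j ≤ n, ∃ c : ℕ → LCh (Fin n → ℝ),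
    ∀ i < j, c i ∈ Supp (fun l => l.length = i + 1 ∧ Small (i * ε) (i + 1) l) ∧
      lbd (c i) = lz c i := by
  intro j
  induction j with
  | zero => exact fun _ => ⟨0, fun i hi => absurd hi (Nat.not_lt_zero i)⟩
  | succ j ih =>
    intro hj
    obtain ⟨c, hc⟩ := ih (by omega)
    let e : Fin n := ⟨j, by omega⟩
    have key : ∃ d : LCh (Fin n → ℝ),
        d ∈ Supp (fun l => l.length = j + 1 ∧ Small (j * ε) (j + 1) l) ∧ lbd d = lz c j := by
      cases j with
      | zero =>
        refine ⟨sl [Pi.single e 1], single_mem_Supp ⟨rfl, ?_, ?_⟩, ?_⟩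
        · intro a ha
          rw [List.mem_singleton.1 ha]
          refine ⟨?_, fun i hi => ?_⟩
          · rw [Finset.sum_eq_single e]
            · simp
            · intro b _ hb; simp [Pi.single_eq_of_ne hb]
            · simp
          · have : i ≠ e := fun h => by subst h; simp [e] at hi
            simp [Pi.single_eq_of_ne this]
        · intro a ha b hb
          rw [List.mem_singleton.1 ha, List.mem_singleton.1 hb]
          simp
        · simp [lbd_sl, lbd0, lz]
      | succ j =>
        obtain ⟨m, hm⟩ := exists_nat_gt (2 / ε)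
        have hm0 : (0 : ℝ) < m := lt_trans (by positivity) hm
        have hm2 : 2 * (1 / (m : ℝ)) ≤ ε := by
          rw [div_lt_iff₀ hε] at hm
          rw [mul_one_div, div_le_iff₀ hm0]
          linarith
        obtain ⟨hc1, hc2⟩ := hc j (by omega)
        have hz : lbd (lz c (j + 1)) = 0 := by
          rw [lz, map_add, lbd_lmap, hc2]
          cases j with
          | zero => rw [lz, lmap_sl, List.map_nil, add_self_z2]
          | succ j =>
            rw [lz, map_add, lmap_lmap]
            have : ((fun a : Fin n → ℝ => -a) ∘ fun a => -a) = id := by funext a; simp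
            rw [this, lmap_id, add_comm (lmap _ _), add_self_z2]
        have hzs : lz c (j + 1) ∈ Supp (fun l => l.length = j + 1 ∧ Small (j * ε) (j + 1) l) := by
          refine Submodule.add_mem _ hc1 (lmap_mem _ ?_ hc1)
          rintro l ⟨h1, h2, h3⟩
          refine ⟨by simpa using h1, fun a ha => ?_, fun a ha b hb => ?_⟩
          · obtain ⟨a', ha', rfl⟩ := List.mem_map.1 ha
            exact (h2 a' ha').neg
          · obtain ⟨a', ha', rfl⟩ := List.mem_map.1 ha
            obtain ⟨b', hb', rfl⟩ := List.mem_map.1 hb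
            rw [dist_neg_neg]
            exact h3 a' ha' b' hb'
        refine ⟨∑ t ∈ Finset.range m, prism (Hom e ((t : ℕ) / m)) (Hom e ((t + 1 : ℕ) / m))
          (lz c (j + 1)), Submodule.sum_mem _ fun t ht => prism_mem _ _ ?_ hzs, ?_⟩
        · rintro l ⟨h1, h2, h3⟩ l' hl' hy
          have ht' : t + 1 ≤ m := Finset.mem_range.1 ht
          have hθ : ∀ y ∈ l', ∃ x ∈ l, ∃ θ : ℝ, 0 ≤ θ ∧ θ ≤ 1 ∧ (t : ℝ) / m ≤ θ ∧
              θ ≤ (t : ℝ) / m + 1 / m ∧ y = Hom e θ x := by
            intro y hy'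
            have hle : (((t + 1 : ℕ) : ℝ)) / m ≤ 1 := by
              rw [div_le_one hm0]; exact_mod_cast ht'
            have hsplit : (((t + 1 : ℕ) : ℝ)) / m = (t : ℝ) / m + 1 / m := by
              push_cast; ring
            have hpos : (0 : ℝ) ≤ 1 / m := by positivity
            have hpos' : (0 : ℝ) ≤ t / m := by positivity
            obtain ⟨x, hx, h | h⟩ := hy y hy'
            · exact ⟨x, hx, _, hpos', by linarith, le_rfl, by linarith, h⟩
            · exact ⟨x, hx, _, by linarith, hle, by linarith, by linarith, h⟩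
          refine ⟨by rw [hl', h1], fun y hy' => ?_, fun y hy' y' hy'' => ?_⟩
          · obtain ⟨x, hx, θ, h0, h1', -, -, rfl⟩ := hθ y hy'
            exact Sph.hom e (h2 x hx) h0 h1'
          · obtain ⟨x, hx, θ, h0, h1', h4, h5, rfl⟩ := hθ y hy'
            obtain ⟨x', hx', θ', -, -, h4', h5', rfl⟩ := hθ y' hy''
            refine (dist_hom_le e h0 h1' (h2 x' hx') (h3 x hx x' hx')).trans ?_
            have : |θ - θ'| ≤ 1 / m := abs_le.2 ⟨by linarith, by linarith⟩
            push_cast
            linarith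
        · rw [lbd_sum_prism (fun t : ℕ => Hom e ((t : ℝ) / m)) hz m]
          have h0 : Hom e (((0 : ℕ) : ℝ) / m) = id := by funext a; simp [Hom]
          have h1 : Hom e (((m : ℕ) : ℝ) / m) = fun _ => Pi.single e 1 := by
            funext a; simp [Hom, div_self hm0.ne']
          rw [h0, h1, lmap_id]
          have : lmap (fun _ : Fin n → ℝ => (Pi.single e 1 : Fin n → ℝ)) (lz c (j + 1)) = 0 := by
            rw [lz, map_add, lmap_lmap]
            exact add_self_z2 _
          rw [this, add_zero]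
    obtain ⟨d, hd1, hd2⟩ := key
    have hlz : ∀ i ≤ j, lz (Function.update c j d) i = lz c i := by
      intro i hi
      cases i with
      | zero => rfl
      | succ i => rw [lz, lz, Function.update_of_ne (by omega)]
    refine ⟨Function.update c j d, fun i hi => ?_⟩
    rw [hlz i (by omega)]
    by_cases hij : i = j
    · subst hij
      rw [Function.update_self]
      exact ⟨hd1, hd2⟩
    · rw [Function.update_of_ne hij]
      exact hc i (by omega)

/-- Chain-level Borsuk--Ulam theorem: an odd labelling of the `ℓ¹`-sphere of `ℝⁿ` carries `n`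
hemisphere chains supported on cliques of any relation that holds for the labels of close points. -/
theorem exists_indChain (n : ℕ) {L : Type*} [DecidableEq L] {τ : L → L}
    (hτ : Function.Involutive τ) {δ : ℝ} (hδ : 0 < δ) (f : (Fin n → ℝ) → L)
    (hf : ∀ a, f (-a) = τ (f a)) (R : L → L → Prop)
    (hR : ∀ a b : Fin n → ℝ, ∑ i, |a i| = 1 → ∑ i, |b i| = 1 → dist a b ≤ δ → R (f a) (f b)) :
    ∃ c, IndChain τ R n c := by
  have hε : 0 < δ / (n + 1) := by positivity
  obtain ⟨c, hc⟩ := exists_lchains n hε n le_rfl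
  refine ⟨fun j => piL f (c j), fun j hj => ?_, fun j hj => ?_⟩
  · refine map_mem_of_Supp (piL f) _ (fun l hl => ?_) (hc j hj).1
    rw [piL_sl]
    refine Supp_mono ?_ (pi0_mem f l)
    rintro S ⟨h1, h2⟩
    refine ⟨fun u hu v hv => ?_, h1.trans hl.1⟩
    obtain ⟨x, hx, rfl⟩ := h2 u hu
    obtain ⟨y, hy, rfl⟩ := h2 v hv
    refine hR x y (hl.2.1 x hx).1 (hl.2.1 y hy).1 ((hl.2.2 x hx y hy).trans ?_)
    have : (j : ℝ) ≤ n + 1 := by exact_mod_cast (by omega : j ≤ n + 1)
    calc (j : ℝ) * (δ / (n + 1)) ≤ (n + 1) * (δ / (n + 1)) :=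
          mul_le_mul_of_nonneg_right this hε.le
      _ = δ := by field_simp
  · rw [bd_piL, (hc j hj).2]
    cases j with
    | zero => rw [lz, zc, piL_sl, pi0]
    | succ j => rw [lz, zc, map_add, mapT_piL hτ.injective f (fun a => -a) hf]

end Sphere

end Crest.Agent.Z2Chain
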