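import Crest.Agent.Lib.Z2Chain.Sphere

/-!
Version of `exists_indChain` in which the labelling is only required to be odd on the sphere.
-/

set_option autoImplicit false

namespace Crest.Agent.Z2Chain

lemma mapT_pi0 {V L : Type*} [DecidableEq L] {τ : L → L} (hτ : Function.Injective τ) (f : V → L)
    (ν : V → V) (l : List V) (hf : ∀ x ∈ l, f (ν x) = τ (f x)) :
    mapT τ (pi0 f l) = pi0 f (l.map ν) := by
  induction l with
  | nil => simp [pi0, mapT_sg]
  | cons x l ih =>
    rw [List.map_cons, pi0, pi0, mapT_cone hτ, ih fun y hy => hf y (List.mem_cons_of_mem _ hy),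
      hf x List.mem_cons_self]

/-- Chain-level Borsuk--Ulam theorem: an odd labelling of the `ℓ¹`-sphere of `ℝⁿ` carries `n`
hemisphere chains supported on cliques of any relation that holds for the labels of close points. -/
theorem exists_indChain' (n : ℕ) {L : Type*} [DecidableEq L] {τ : L → L}
    (hτ : Function.Involutive τ) {δ : ℝ} (hδ : 0 < δ) (f : (Fin n → ℝ) → L)
    (hf : ∀ a, ∑ i, |a i| = 1 → f (-a) = τ (f a)) (R : L → L → Prop)
    (hR : ∀ a b : Fin n → ℝ, ∑ i, |a i| = 1 → ∑ i, |b i| = 1 → dist a b ≤ δ → R (f a) (f b)) :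
    ∃ c, IndChain τ R n c := by
  have hε : 0 < δ / (n + 1) := by positivity
  obtain ⟨c, hc⟩ := exists_lchains n hε n le_rfl
  refine ⟨fun j => piL f (c j), fun j hj => ?_, fun j hj => ?_⟩
  · refine map_mem_of_Supp (piL f) _ (fun l hl => ?_) (hc j hj).1
    rw [piL_sl]
    refine Supp_mono ?_ (pi0_mem f l)
    rintro S ⟨h1, h2⟩
    refine ⟨fun u hu v hv => ?_, h1.trans hl.1⟩
    obtain ⟨x, hx, rfl⟩ := h2 u hu
    obtain ⟨y, hy, rfl⟩ := h2 v hv
    refine hR x y (hl.2.1 x hx).1 (hl.2.1 y hy).1 ((hl.2.2 x hx y hy).trans ?_)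
    have : (j : ℝ) ≤ n + 1 := by exact_mod_cast (by omega : j ≤ n + 1)
    calc (j : ℝ) * (δ / (n + 1)) ≤ (n + 1) * (δ / (n + 1)) :=
          mul_le_mul_of_nonneg_right this hε.le
      _ = δ := by field_simp
  · rw [bd_piL, (hc j hj).2]
    cases j with
    | zero => rw [lz, zc, piL_sl, pi0]
    | succ j =>
      rw [lz, zc, map_add]
      congr 1
      refine map_eq_of_Supp (piL f ∘ₗ lmap fun a => -a) (mapT τ ∘ₗ piL f) (fun l hl => ?_)
        (hc j (by omega)).1
      simp only [LinearMap.comp_apply, lmap_sl, piL_sl]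
      exact (mapT_pi0 hτ.injective f _ l fun x hx => hf x (hl.2.1 x hx).1).symm

end Crest.Agent.Z2Chain
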